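import Vale.Agent.P112.F30.Defs
import Vale.Agent.P112.T.Cor

/-!
# P112 / (G) / [LONG] : the long scales (helper314)

For a field which is `e`-Lipschitz in `y`, `e ≤ 1 / 2`, every single scale operator `S_j` is bounded on `L^∞`, so `J` scales
cost `C J |F|`.
-/

open MeasureTheory Set Filter
open scoped ENNReal

set_option linter.dupNamespace false
set_option linter.unusedSectionVars false

namespace Vale.Agent.P112.Long

open T F30

variable {M : ℕ}

/-- The points whose unit tube of length `2 ^ (-j)` meets `ζ`. -/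
def Tb (u : ℝ × ℝ → ℝ) (j : ℕ) (ζ : ℝ × ℝ) : Set (ℝ × ℝ) :=
  {z | |z.1 - ζ.1| ≤ 1 / (8 * 2 ^ j) ∧ |z.2 - ζ.2 - (z.1 - ζ.1) * u z| ≤ 1}

theorem Tb_meas {u : ℝ × ℝ → ℝ} (hu : Measurable u) (j : ℕ) (ζ : ℝ × ℝ) : MeasurableSet (Tb u j ζ) := by
  have h1 : MeasurableSet {z : ℝ × ℝ | |z.1 - ζ.1| ≤ 1 / (8 * 2 ^ j)} :=
    measurableSet_le (by fun_prop) measurable_const
  have h2 : MeasurableSet {z : ℝ × ℝ | |z.2 - ζ.2 - (z.1 - ζ.1) * u z| ≤ 1} :=
    measurableSet_le (by fun_prop) measurable_const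
  exact h1.inter h2

theorem Tb_vol {u : ℝ × ℝ → ℝ} (hu : Measurable u) {e : ℝ} (he : e ≤ 1 / 2)
    (hl : ∀ x y y', |u (x, y) - u (x, y')| ≤ e * |y - y'|) (j : ℕ) (ζ : ℝ × ℝ) :
    volume (Tb u j ζ) ≤ ENNReal.ofReal (1 / 2 ^ j) := by
  have hp : (1 : ℝ) ≤ 2 ^ j := one_le_pow₀ (by norm_num)
  have hp0 : (0 : ℝ) < 2 ^ j := by positivity
  have hsl : ∀ x : ℝ, volume (Prod.mk x ⁻¹' Tb u j ζ) ≤
      (Icc (ζ.1 - 1 / (8 * 2 ^ j)) (ζ.1 + 1 / (8 * 2 ^ j))).indicator
        (fun _ => ENNReal.ofReal 4) x := by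
    intro x
    by_cases hx : |x - ζ.1| ≤ 1 / (8 * 2 ^ j)
    · have hxI : x ∈ Icc (ζ.1 - 1 / (8 * 2 ^ j)) (ζ.1 + 1 / (8 * 2 ^ j)) := by
        rw [abs_le] at hx
        constructor <;> linarith [hx.1, hx.2]
      rw [indicator_of_mem hxI]
      refine (Real.volume_le_diam _).trans (Metric.ediam_le fun y hy y' hy' => ?_)
      rw [edist_dist, Real.dist_eq]
      refine ENNReal.ofReal_le_ofReal ?_
      have h1 : |y - ζ.2 - (x - ζ.1) * u (x, y)| ≤ 1 := hy.2
      have h2 : |y' - ζ.2 - (x - ζ.1) * u (x, y')| ≤ 1 := hy'.2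
      have h3 : |(x - ζ.1) * (u (x, y) - u (x, y'))| ≤ 1 / 8 * (1 / 2 * |y - y'|) := by
        rw [abs_mul]
        have h4 : |x - ζ.1| ≤ 1 / 8 := by
          refine hx.trans ?_
          rw [div_le_div_iff₀ (by positivity) (by norm_num)]
          linarith
        have h5 : |u (x, y) - u (x, y')| ≤ 1 / 2 * |y - y'| :=
          (hl x y y').trans (mul_le_mul_of_nonneg_right he (abs_nonneg _))
        exact mul_le_mul h4 h5 (abs_nonneg _) (by norm_num)
      have h6 : y - y' = (y - ζ.2 - (x - ζ.1) * u (x, y)) -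
          (y' - ζ.2 - (x - ζ.1) * u (x, y')) + (x - ζ.1) * (u (x, y) - u (x, y')) := by ring
      have h7 : |y - y'| ≤ 1 + 1 + 1 / 8 * (1 / 2 * |y - y'|) := by
        calc |y - y'| ≤ |(y - ζ.2 - (x - ζ.1) * u (x, y)) -
              (y' - ζ.2 - (x - ζ.1) * u (x, y'))| + |(x - ζ.1) * (u (x, y) - u (x, y'))| := by
              conv_lhs => rw [h6]
              exact abs_add_le _ _
          _ ≤ (|y - ζ.2 - (x - ζ.1) * u (x, y)| + |y' - ζ.2 - (x - ζ.1) * u (x, y')|) +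
              |(x - ζ.1) * (u (x, y) - u (x, y'))| := by
              gcongr
              exact abs_sub _ _
          _ ≤ _ := by linarith
      linarith
    · have : Prod.mk x ⁻¹' Tb u j ζ = ∅ := by
        ext y
        simp only [mem_preimage, mem_empty_iff_false, iff_false]
        exact fun h => hx h.1
      rw [this, measure_empty]
      exact bot_le
  rw [Measure.volume_eq_prod, Measure.prod_apply (Tb_meas hu j ζ)]
  refine (lintegral_mono hsl).trans ?_
  rw [lintegral_indicator measurableSet_Icc, setLIntegral_const, Real.volume_Icc,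
    ← ENNReal.ofReal_mul (by norm_num)]
  refine ENNReal.ofReal_le_ofReal (le_of_eq ?_)
  field_simp
  ring

/-- **Single scale operators are bounded on `L^∞`.** -/
theorem S_bdd (κ : Ker M) : ∃ C : ℝ, 0 < C ∧ ∀ (u : ℝ × ℝ → ℝ), Field u → ∀ e : ℝ, e ≤ 1 / 2 →
    (∀ x y y', |u (x, y) - u (x, y')| ≤ e * |y - y'|) → ∀ (j : ℕ) (g : ℝ × ℝ → ℝ), Nice g →
    (∀ z, |g z| ≤ 1) → ∀ ζ, |κ.S u j g ζ| ≤ C := by
  obtain ⟨D, hD, hk⟩ := κ.k_bdd
  refine ⟨D, hD, ?_⟩
  intro u hu e he hl j g hg hg1 ζ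
  have hp0 : (0 : ℝ) < 2 ^ j := by positivity
  have hvol := Tb_vol hu.meas he hl j ζ
  have hfin : volume (Tb u j ζ) ≠ ⊤ := ne_top_of_le_ne_top ENNReal.ofReal_ne_top hvol
  have h1 : ∀ z, |κ.k j (u z) z ζ * g z| ≤ (Tb u j ζ).indicator (fun _ => D * 2 ^ j) z := by
    intro z
    by_cases hz : κ.k j (u z) z ζ = 0
    · rw [hz, zero_mul, abs_zero]
      exact indicator_nonneg (fun _ _ => by positivity) _
    · have h2 := κ.k_supp hz
      rw [indicator_of_mem (show z ∈ Tb u j ζ from h2), abs_mul]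
      calc |κ.k j (u z) z ζ| * |g z| ≤ D * 2 ^ j * 1 :=
            mul_le_mul (hk _ _ _ _) (hg1 z) (abs_nonneg _) (by positivity)
        _ = D * 2 ^ j := mul_one _
  have hint : Integrable ((Tb u j ζ).indicator fun _ => D * 2 ^ j) := by
    rw [integrable_indicator_iff (Tb_meas hu.meas j ζ)]
    exact integrableOn_const (hs := hfin)
  calc |κ.S u j g ζ| = |∫ z, κ.k j (u z) z ζ * g z| := rfl
    _ ≤ ∫ z, |κ.k j (u z) z ζ * g z| := abs_integral_le_integral_abs
    _ ≤ ∫ z, (Tb u j ζ).indicator (fun _ => D * 2 ^ j) z :=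
        integral_mono (integrable_S_int κ hu j hg ζ).abs hint h1
    _ = (volume (Tb u j ζ)).toReal * (D * 2 ^ j) := by
        rw [integral_indicator (Tb_meas hu.meas j ζ), setIntegral_const, smul_eq_mul,
          measureReal_def]
    _ ≤ (1 / 2 ^ j) * (D * 2 ^ j) := by
        refine mul_le_mul_of_nonneg_right ?_ (by positivity)
        exact ENNReal.toReal_le_of_le_ofReal (by positivity) hvol
    _ = D := by field_simp

/-- The scales `≥ J` of the system `P`. -/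
def cut (J : ℕ) (P : ℕ → Set (ℝ × ℝ)) (j : ℕ) : Set (ℝ × ℝ) := {z | J ≤ j ∧ z ∈ P j}

theorem cut_of_le {J : ℕ} {P : ℕ → Set (ℝ × ℝ)} {j : ℕ} (h : J ≤ j) : cut J P j = P j := by
  ext z
  simp [cut, h]

theorem cut_of_lt {J : ℕ} {P : ℕ → Set (ℝ × ℝ)} {j : ℕ} (h : j < J) : cut J P j = ∅ := by
  ext z
  simp [cut, h]

theorem cut_sub (J : ℕ) (P : ℕ → Set (ℝ × ℝ)) (j : ℕ) : cut J P j ⊆ P j := fun _ h => h.2

theorem cut_meas {J : ℕ} {P : ℕ → Set (ℝ × ℝ)} (hP : ∀ j, MeasurableSet (P j)) (j : ℕ) :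
    MeasurableSet (cut J P j) := by
  rcases le_or_gt J j with h | h
  · rw [cut_of_le h]
    exact hP j
  · rw [cut_of_lt h]
    exact MeasurableSet.empty

theorem PSys.cut {n : ℕ} {P : ℕ → Set (ℝ × ℝ)} (hP : PSys n P) (J : ℕ) : PSys n (cut J P) where
  meas := cut_meas hP.meas
  bdd := by
    obtain ⟨r, hr⟩ := hP.bdd
    exact ⟨r, fun j z hz => hr j z hz.2⟩
  lt j hj := by
    ext z
    simp only [mem_empty_iff_false, iff_false]
    intro hz
    have := hz.2
    rw [hP.lt j hj] at this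
    exact this
  conv z i j k hij hjk hi hk := ⟨hi.1.trans hij, hP.conv z i j k hij hjk hi.2 hk.2⟩

/-- **[LONG]** the scales `< J` cost `C J |F|`. -/
theorem long_cut (κ : Ker M) : ∃ C : ℝ, 0 < C ∧ ∀ (u : ℝ × ℝ → ℝ), Field u → ∀ e : ℝ, e ≤ 1 / 2 →
    (∀ x y y', |u (x, y) - u (x, y')| ≤ e * |y - y'|) →
    ∀ (n J : ℕ) (f g : ℝ × ℝ → ℝ), Nice f → Nice g → (∀ z, |f z| ≤ 1) → (∀ z, |g z| ≤ 1) →
    ∀ P : ℕ → Set (ℝ × ℝ), (∀ j, MeasurableSet (P j)) →
      |(∫ ζ, f ζ * κ.FS u g P n ζ) - ∫ ζ, f ζ * κ.FS u g (cut J P) n ζ| ≤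
        C * J * (volume {z | f z ≠ 0}).toReal := by
  obtain ⟨C, hC, hS⟩ := S_bdd κ
  refine ⟨C, hC, ?_⟩
  intro u hu e he hl n J f g hf hg hf1 hg1 P hP
  have hFP := κ.FS_nice hu hg hP n
  have hFc := κ.FS_nice hu hg (cut_meas (J := J) hP) n
  have hE : MeasurableSet {z | f z ≠ 0} := (measurableSet_singleton (0 : ℝ)).compl.preimage hf.meas
  have hEf : volume {z | f z ≠ 0} ≠ ⊤ := by
    obtain ⟨r, hr⟩ := hf.supp
    refine ne_top_of_le_ne_top (isCompact_Icc.prod isCompact_Icc :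
      IsCompact (Icc (-r) r ×ˢ Icc (-r) r : Set (ℝ × ℝ))).measure_lt_top.ne (measure_mono ?_)
    intro z hz
    by_contra hc
    apply hz
    apply hr
    by_contra hn
    push Not at hn
    exact hc ⟨mem_Icc.2 (abs_le.1 hn.1.le), mem_Icc.2 (abs_le.1 hn.2.le)⟩
  have hdif : ∀ ζ, |κ.FS u g P n ζ - κ.FS u g (cut J P) n ζ| ≤ C * J := by
    intro ζ
    unfold Ker.FS
    rw [← Finset.sum_sub_distrib]
    have h0 : ∀ j ∈ Finset.range n, |κ.S u j ((P j).indicator g) ζ -
        κ.S u j ((cut J P j).indicator g) ζ| ≤ if j < J then C else 0 := by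
      intro j _
      by_cases hj : j < J
      · rw [if_pos hj, cut_of_lt hj]
        have e0 : κ.S u j ((∅ : Set (ℝ × ℝ)).indicator g) ζ = 0 := by
          unfold Ker.S
          simp
        rw [e0, sub_zero]
        refine hS u hu e he hl j _ (hg.indicator (hP j)) (fun z => ?_) ζ
        by_cases hz : z ∈ P j
        · rw [indicator_of_mem hz]
          exact hg1 z
        · rw [indicator_of_notMem hz, abs_zero]
          exact zero_le_one
      · rw [if_neg hj, cut_of_le (not_lt.1 hj), sub_self, abs_zero]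
    refine (Finset.abs_sum_le_sum_abs _ _).trans ((Finset.sum_le_sum h0).trans ?_)
    rw [← Finset.sum_filter, Finset.sum_const, nsmul_eq_mul, mul_comm]
    refine mul_le_mul_of_nonneg_left ?_ hC.le
    have : (Finset.range n).filter (fun j => j < J) ⊆ Finset.range J := by
      intro j hj
      rw [Finset.mem_filter] at hj
      exact Finset.mem_range.2 hj.2
    exact_mod_cast (Finset.card_le_card this).trans (by simp)
  rw [← integral_sub (hf.mul hFP).integrable (hf.mul hFc).integrable]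
  have h1 : ∀ ζ, |f ζ * κ.FS u g P n ζ - f ζ * κ.FS u g (cut J P) n ζ| ≤
      ({z | f z ≠ 0} : Set (ℝ × ℝ)).indicator (fun _ => C * J) ζ := by
    intro ζ
    by_cases hζ : f ζ = 0
    · rw [hζ, zero_mul, zero_mul, sub_zero, abs_zero]
      exact indicator_nonneg (fun _ _ => by positivity) _
    · rw [indicator_of_mem (show ζ ∈ {z | f z ≠ 0} from hζ), ← mul_sub, abs_mul]
      calc |f ζ| * |κ.FS u g P n ζ - κ.FS u g (cut J P) n ζ| ≤ 1 * (C * J) :=
            mul_le_mul (hf1 ζ) (hdif ζ) (abs_nonneg _) zero_le_one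
        _ = C * J := one_mul _
  have hint : Integrable (({z | f z ≠ 0} : Set (ℝ × ℝ)).indicator fun _ => C * (J : ℝ)) := by
    rw [integrable_indicator_iff hE]
    exact integrableOn_const (hs := hEf)
  calc |∫ ζ, (f ζ * κ.FS u g P n ζ - f ζ * κ.FS u g (cut J P) n ζ)|
      ≤ ∫ ζ, |f ζ * κ.FS u g P n ζ - f ζ * κ.FS u g (cut J P) n ζ| := abs_integral_le_integral_abs
    _ ≤ ∫ ζ, ({z | f z ≠ 0} : Set (ℝ × ℝ)).indicator (fun _ => C * (J : ℝ)) ζ :=
        integral_mono ((hf.mul hFP).integrable.sub (hf.mul hFc).integrable).abs hint h1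
    _ = C * J * (volume {z | f z ≠ 0}).toReal := by
        rw [integral_indicator hE, setIntegral_const, smul_eq_mul, measureReal_def]
        ring

end Vale.Agent.P112.Long
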